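import Mathlib
import Vale.Agent.Lib.P322.helper19.Biased

namespace Vale.Agent.Lib.P322

open Finset

/-- the binary entropy, in nats, of a bias at most `1 / 6` is at most `1 / 2` -/
lemma binEntropy_le_half2 {p : ℝ} (hp0 : 0 ≤ p) (hp : p ≤ 1 / 6) : Real.binEntropy p ≤ 1 / 2 := by
  have hmono : Real.binEntropy p ≤ Real.binEntropy (1 / 6) := by
    have hs := Real.binEntropy_strictMonoOn
    refine hs.monotoneOn ?_ ?_ hp
    · rw [Set.mem_Icc]
      constructor
      · exact hp0
      · norm_num at hp ⊢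
        linarith
    · rw [Set.mem_Icc]
      constructor <;> norm_num
  have hval : Real.binEntropy (1 / 6) ≤ 1 / 2 := by
    unfold Real.binEntropy
    have e1 : ((1 : ℝ) / 6)⁻¹ = 2 ^ 2 * (3 / 2) := by norm_num
    have e2 : ((1 : ℝ) - 1 / 6)⁻¹ = 6 / 5 := by norm_num
    rw [e1, e2, Real.log_mul (by norm_num) (by norm_num), Real.log_pow]
    have hl2 := Real.log_two_lt_d9
    have hl : Real.log (6 / 5) ≤ 6 / 5 - 1 := Real.log_le_sub_one_of_pos (by norm_num)
    have hl3 : Real.log (3 / 2) ≤ 3 / 2 - 1 := Real.log_le_sub_one_of_pos (by norm_num)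
    push_cast
    nlinarith
  linarith

theorem ck_of_biased2 (n : ℕ) (e : ℝ) (h0 : 0 ≤ e) (h1 : e ≤ 1 / 2) (f : (Fin n → Bool) → Bool)
    (hb : 4 / 9 ≤ fmean n f ^ 2) : mutualInfo (joint n e f) ≤ 1 - h2 e := by
  set p := avg n (ind f) with hp
  have hp0 : 0 ≤ p := avg_nonneg n _ (fun x => ind_nonneg f x)
  have hp1 : p ≤ 1 := by
    have h := avg_mono n (ind f) (fun _ => (1 : ℝ)) (fun x => ind_le_one f x)
    rw [avg_const] at h
    exact h
  rw [fmean_eq, ← hp] at hb
  -- the bias is extreme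
  have hcase : p ≤ 1 / 6 ∨ 5 / 6 ≤ p := by
    by_contra hcon
    rw [not_or, not_le, not_le] at hcon
    nlinarith [hcon.1, hcon.2]
  have hH : Real.binEntropy p ≤ 1 / 2 := by
    rcases hcase with hc | hc
    · exact binEntropy_le_half2 hp0 hc
    · rw [← Real.binEntropy_one_sub]
      exact binEntropy_le_half2 (by linarith) (by linarith)
  have hI := mutualInfo_joint n e h0 (by linarith) f
  have b1 := ent_nop_le_two_psi n e h0 h1 (ind f) (fun x => ind_nonneg f x)
  have b2 := ent_nop_le_two_psi n e h0 h1 (fun x => 1 - ind f x)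
    (fun x => by have := ind_le_one f x; linarith)
  have hsum := ent_ind_add n f
  rw [← hp] at hsum
  have hpsi : 0 ≤ psi (1 - 2 * e) := psi_nonneg (by rw [abs_le]; constructor <;> linarith)
  have hpe := psi_eq (e := e) h0 (by linarith)
  have hl : 0 < Real.log 2 := Real.log_pos (by norm_num)
  have hfin : mutualInfo (joint n e f) * Real.log 2 ≤ Real.log 2 - Real.binEntropy e := by
    have h3 : 2 * psi (1 - 2 * e) * (ent n (ind f) + ent n (fun x => 1 - ind f x))
        ≤ 2 * psi (1 - 2 * e) * (1 / 2) := by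
      rw [hsum]
      exact mul_le_mul_of_nonneg_left hH (by linarith)
    rw [hI, ← hpe]
    linarith
  unfold h2
  rw [← sub_nonneg] at hfin ⊢
  have e2 : 1 - Real.binEntropy e / Real.log 2 - mutualInfo (joint n e f) =
      (Real.log 2 - Real.binEntropy e - mutualInfo (joint n e f) * Real.log 2) / Real.log 2 := by
    field_simp
  rw [e2]
  exact div_nonneg hfin hl.le

end Vale.Agent.Lib.P322
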