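import Mathlib
import Vale.Agent.Lib.P322.Coord

namespace Vale.Agent.Lib.P322

open Finset

/-- two terms of the power series of `psi` -/
lemma psi_ge2 {t : ℝ} (ht : |t| < 1) : t ^ 2 / 2 + t ^ 4 / 12 ≤ psi t := by
  have h := hasSum_psi ht
  have hle := sum_le_hasSum (Finset.range 2) (fun j _ => by
    have h0 : 0 ≤ t ^ (2 * j + 2) := by
      have e : t ^ (2 * j + 2) = (t ^ (j + 1)) ^ 2 := by ring
      rw [e]; positivity
    positivity) h
  have e : ∑ k ∈ Finset.range 2, t ^ (2 * k + 2) / ((2 * (k : ℝ) + 1) * (2 * (k : ℝ) + 2)) =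
      t ^ 2 / 2 + t ^ 4 / 12 := by
    rw [Finset.sum_range_succ, Finset.sum_range_one]
    norm_num
  rw [e] at hle
  exact hle

/-- The Courtade-Kumar inequality under a sharpened Fourier-weight condition. -/
theorem ck_of_highWeight2 (n : ℕ) (e : ℝ) (h0 : 0 < e) (h1 : e ≤ 1 / 2)
    (f : (Fin n → Bool) → Bool)
    (hW : (1 - 2 * e) ^ 2 * (5 + (1 - 2 * e) ^ 2) / 6 ≤
      (1 - (1 - 2 * e) ^ 2) ^ 2 * highWeight n f) :
    mutualInfo (joint n e f) ≤ 1 - h2 e := by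
  have h := mutualInfo_le_W2 n e h0 h1 f
  have hl : 0 < Real.log 2 := Real.log_pos (by norm_num)
  have hq : 0 < 1 - (1 - 2 * e) ^ 2 := by nlinarith
  rw [highWeight_eq] at hW
  have hp := psi_ge2 (t := 1 - 2 * e) (by rw [abs_lt]; constructor <;> linarith)
  rw [psi_eq h0.le (by linarith)] at hp
  obtain ⟨r, hr⟩ : ∃ r : ℝ, r = 1 - 2 * e := ⟨_, rfl⟩
  obtain ⟨X, hX⟩ : ∃ X : ℝ, X = W2 n (ind f) := ⟨_, rfl⟩
  rw [← hr] at h hW hp hq
  rw [← hX] at h hW
  have hK : 0 ≤ r ^ 2 / (2 * (1 - r ^ 2)) := by positivity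
  have hb : r ^ 2 / (2 * (1 - r ^ 2)) * (1 - 4 * ((1 - r ^ 2) ^ 2 * X)) ≤
      r ^ 2 / (2 * (1 - r ^ 2)) * ((1 - r ^ 2) * (1 + r ^ 2 / 6)) :=
    mul_le_mul_of_nonneg_left (by nlinarith) hK
  have e1 : r ^ 2 / (2 * (1 - r ^ 2)) * ((1 - r ^ 2) * (1 + r ^ 2 / 6)) =
      r ^ 2 / 2 + r ^ 4 / 12 := by
    field_simp
    ring
  rw [e1] at hb
  have hfin : mutualInfo (joint n e f) * Real.log 2 ≤ Real.log 2 - Real.binEntropy e := by
    linarith
  unfold h2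
  rw [← sub_nonneg] at hfin ⊢
  have e2 : 1 - Real.binEntropy e / Real.log 2 - mutualInfo (joint n e f) =
      (Real.log 2 - Real.binEntropy e - mutualInfo (joint n e f) * Real.log 2) / Real.log 2 := by
    field_simp
  rw [e2]
  exact div_nonneg hfin hl.le

/-- The Courtade-Kumar inequality under a sharpened Fourier-weight condition relative to one
coordinate. -/
theorem ck_of_coord2 (n : ℕ) (e : ℝ) (h0 : 0 < e) (h1 : e ≤ 1 / 2)
    (f : (Fin n → Bool) → Bool) (i : Fin n)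
    (hW : (1 - 2 * e) ^ 2 * (1 - coordShare n f i) *
        (1 + (1 - (1 - 2 * e) ^ 2) * coordShare n f i -
          (1 - (1 - 2 * e) ^ 2) * (1 - (1 - 2 * e) ^ 2 * coordShare n f i) / 6) ≤
      (1 - (1 - 2 * e) ^ 2) ^ 2 * (1 - (1 - 2 * e) ^ 2 * coordShare n f i) * highWeight n f) :
    mutualInfo (joint n e f) ≤ 1 - h2 e := by
  have h := mutualInfo_master n e h0 h1 f i
  have hl : 0 < Real.log 2 := Real.log_pos (by norm_num)
  have ha0 := coordShare_nonneg n f i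
  have ha1 := coordShare_le_one n f i
  obtain ⟨a, ha⟩ : ∃ a : ℝ, a = coordShare n f i := ⟨_, rfl⟩
  obtain ⟨W, hWd⟩ : ∃ W : ℝ, W = highWeight n f := ⟨_, rfl⟩
  obtain ⟨r, hr⟩ : ∃ r : ℝ, r = 1 - 2 * e := ⟨_, rfl⟩
  rw [← ha, ← hWd, ← hr] at h hW
  rw [← ha] at ha0 ha1
  have hr0 : 0 ≤ r := by rw [hr]; linarith
  have hr1 : r < 1 := by rw [hr]; linarith
  have hq : 0 < 1 - r ^ 2 := by nlinarith
  have hd : 0 < 1 - r ^ 2 * a := by nlinarith
  have hp := psi_ge2 (t := 1 - 2 * e) (by rw [abs_lt]; constructor <;> linarith)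
  rw [psi_eq h0.le (by linarith), ← hr] at hp
  have key : (1 - (1 - r ^ 2) ^ 2 * W) / (1 - r ^ 2) - a / (1 - r ^ 2 * a) ≤
      (1 - a) * (1 + r ^ 2 / 6) := by
    rw [div_sub_div _ _ hq.ne' hd.ne', div_le_iff₀ (mul_pos hq hd)]
    nlinarith [hW]
  have h3 : r ^ 2 / 2 * ((1 - (1 - r ^ 2) ^ 2 * W) / (1 - r ^ 2) - a / (1 - r ^ 2 * a)) ≤
      r ^ 2 / 2 * ((1 - a) * (1 + r ^ 2 / 6)) := mul_le_mul_of_nonneg_left key (by positivity)
  have h4 : (r ^ 2 / 2 + r ^ 4 / 12) * (1 - a) ≤ (Real.log 2 - Real.binEntropy e) * (1 - a) :=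
    mul_le_mul_of_nonneg_right hp (by linarith)
  have hfin : mutualInfo (joint n e f) * Real.log 2 ≤ Real.log 2 - Real.binEntropy e := by
    nlinarith
  unfold h2
  rw [← sub_nonneg] at hfin ⊢
  have e2 : 1 - Real.binEntropy e / Real.log 2 - mutualInfo (joint n e f) =
      (Real.log 2 - Real.binEntropy e - mutualInfo (joint n e f) * Real.log 2) / Real.log 2 := by
    field_simp
  rw [e2]
  exact div_nonneg hfin hl.le

end Vale.Agent.Lib.P322
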